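import Vale.Agent.P128.H757.Local

/-!
P128: weak integrability of the gradient on compact sets.
-/

open MeasureTheory Set Metric Filter
open scoped ENNReal NNReal Topology Real

namespace Vale.Agent.P128.H757

open Vale.Agent.P128 Vale.Agent.P128.H861

variable {Ω : Set ℂ} {g u : ℂ → ℝ} {G : ℂ → ℂ} {K : Set ℂ}

/-- weak `L^q` on `S` minus `K` -/
def WeakOn (q : ℕ) (G : ℂ → ℂ) (K S : Set ℂ) : Prop :=
  ∃ A : ℝ, 0 ≤ A ∧ ∀ t : ℝ, 0 < t → volume {z ∈ S \ K | t < ‖G z‖} ≤ ENNReal.ofReal (A / t ^ q)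

theorem WeakOn.mono {q : ℕ} {S S' : Set ℂ} (h : WeakOn q G K S) (hS : S' ⊆ S) : WeakOn q G K S' := by
  obtain ⟨A, hA, H⟩ := h
  refine ⟨A, hA, fun t ht => le_trans (measure_mono ?_) (H t ht)⟩
  exact fun z hz => ⟨⟨hS hz.1.1, hz.1.2⟩, hz.2⟩

theorem WeakOn.union {q : ℕ} {S S' : Set ℂ} (h : WeakOn q G K S) (h' : WeakOn q G K S') :
    WeakOn q G K (S ∪ S') := by
  obtain ⟨A, hA, H⟩ := h
  obtain ⟨A', hA', H'⟩ := h'
  refine ⟨A + A', by positivity, fun t ht => ?_⟩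
  have hsub : {z ∈ (S ∪ S') \ K | t < ‖G z‖} ⊆ {z ∈ S \ K | t < ‖G z‖} ∪ {z ∈ S' \ K | t < ‖G z‖} := by
    rintro z ⟨⟨hz | hz, hzK⟩, hzt⟩
    · exact Or.inl ⟨⟨hz, hzK⟩, hzt⟩
    · exact Or.inr ⟨⟨hz, hzK⟩, hzt⟩
  calc volume {z ∈ (S ∪ S') \ K | t < ‖G z‖} ≤ _ := measure_mono hsub
    _ ≤ _ := measure_union_le _ _
    _ ≤ ENNReal.ofReal (A / t ^ q) + ENNReal.ofReal (A' / t ^ q) := add_le_add (H t ht) (H' t ht)
    _ = _ := by
        rw [← ENNReal.ofReal_add (by positivity) (by positivity), add_div]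

theorem WeakOn.congr {q : ℕ} {S : Set ℂ} {G' : ℂ → ℂ} (h : WeakOn q G' K S) (hS : S ⊆ Ω)
    (hG : G =ᵐ[volume.restrict (Ω \ K)] G') : WeakOn q G K S := by
  obtain ⟨A, hA, H⟩ := h
  refine ⟨A, hA, fun t ht => le_trans (measure_mono_ae ?_) (H t ht)⟩
  have h1 : ∀ᵐ z ∂(volume.restrict (Ω \ K)), G z = G' z := hG
  have h2 : ∀ᵐ z, z ∈ Ω \ K → G z = G' z := ae_imp_of_ae_restrict h1
  filter_upwards [h2] with z hz hzS
  have hz1 : z ∈ S \ K := hzS.1
  have hz2 : t < ‖G z‖ := hzS.2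
  have hz3 := hz ⟨hS hz1.1, hz1.2⟩
  exact ⟨hz1, by rw [← hz3]; exact hz2⟩

theorem WeakOn.of_bound {q : ℕ} {x : ℂ} {r B : ℝ} (hr : 0 < r) (hB : 0 ≤ B)
    (h : ∀ z ∈ ball x r \ K, ‖G z‖ ≤ B) : WeakOn q G K (ball x r) := by
  have hπ := Real.pi_pos
  refine ⟨π * r ^ 2 * B ^ q, by positivity, fun t ht => ?_⟩
  rcases lt_or_ge t B with h1 | h1
  · calc volume {z ∈ ball x r \ K | t < ‖G z‖} ≤ volume (ball x r) :=
          measure_mono fun z hz => hz.1.1
      _ = ENNReal.ofReal (π * r ^ 2) := volume_ball' x hr.le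
      _ ≤ _ := by
          refine ENNReal.ofReal_le_ofReal ?_
          rw [le_div_iff₀ (by positivity)]
          gcongr
  · have : {z ∈ ball x r \ K | t < ‖G z‖} = ∅ := by
      ext z
      simp only [mem_ofPred_eq, mem_empty_iff_false, iff_false, not_and, not_lt]
      exact fun hz => (h z hz).trans h1
    rw [this, measure_empty]
    exact bot_le

/-- Off `K` the gradient is locally bounded. -/
theorem weak_off (hΩ : IsOpen Ω) (hg : MemLp g ⊤ (volume.restrict Ω))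
    (hmin : IsMinimizer Ω g u G K) {x : ℂ} (hx : x ∈ Ω \ K) :
    ∃ r, 0 < r ∧ ∀ q : ℕ, WeakOn q G K (ball x r) := by
  obtain ⟨M, g', u₁, G₁, N, hG₁, -, -⟩ := normalize' hΩ hg hmin
  obtain ⟨R, hR, hRΩ⟩ := Metric.nhds_basis_closedBall.mem_iff.1 (N.isOpen.mem_nhds hx.1)
  obtain ⟨R₁, M₁, h1, h2, h3, h4⟩ := N.exists_bounded hR hRΩ
  obtain ⟨u', G', N', hc1, hG', -, -, hGG⟩ := Q1.nice_rep N (x := x) (R₁ := R₁) h3 h4
  have hU : IsOpen (Ω \ K) := N.min.1.isOpen_diff N.isOpen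
  obtain ⟨r, hr, hrU⟩ := Metric.nhds_basis_closedBall.mem_iff.1 (hU.mem_nhds hx)
  have hcont : ContinuousOn (grad u') (closedBall x r) := (GM.continuousOn_grad hU hc1).mono hrU
  obtain ⟨B, hB⟩ := (isCompact_closedBall x r).exists_bound_of_continuousOn hcont
  have hB0 : 0 ≤ B := (norm_nonneg _).trans (hB x (mem_closedBall_self hr.le))
  refine ⟨r, hr, fun q => ?_⟩
  have h5 : WeakOn q G' K (ball x r) := WeakOn.of_bound hr hB0 fun z hz => by
    have hz' : z ∈ closedBall x r := ball_subset_closedBall hz.1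
    rw [hG' z (hrU hz')]
    exact hB z hz'
  exact h5.congr (Ω := Ω) (fun z hz => (hrU (ball_subset_closedBall hz)).1)
    (hG₁.trans (ae_restrict_of_ae hGG))

/-- The local theorem. -/
theorem weak_local (hΩ : IsOpen Ω) (hg : MemLp g ⊤ (volume.restrict Ω))
    (hmin : IsMinimizer Ω g u G K) (hred : IsReduced Ω K) {x : ℂ} (hx : x ∈ Ω) :
    ∃ r, 0 < r ∧ WeakOn 4 G K (ball x r) ∧ (¬ IsTip Ω K x → WeakOn 5 G K (ball x r)) := by
  by_cases hxK : x ∈ K
  · obtain ⟨g', u', G', M, R₀, h, hG⟩ := exists_MS' hΩ hg hmin hred hxK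
    have hxx : x ∈ K ∩ ball x R₀ := ⟨hxK, mem_ball_self h.R0⟩
    have hsub : ∀ r, r ≤ R₀ → ball x r ⊆ Ω := fun r hr' =>
      (ball_subset_closedBall.trans (closedBall_subset_closedBall (by linarith [h.R0]))).trans h.sub
    have key : ∀ {q : ℕ} {r A : ℝ}, 0 < r → (∀ t : ℝ, 0 < t →
        volume {z ∈ ball x r \ K | t < ‖G' z‖} ≤ ENNReal.ofReal (A / t ^ q)) →
        ∃ s, 0 < s ∧ ∀ s', s' ≤ s → WeakOn q G K (ball x s') := by
      intro q r A hr H
      refine ⟨min r R₀, lt_min hr h.R0, fun s' hs' => ?_⟩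
      have h1 : WeakOn q G' K (ball x r) := ⟨max A 0, le_max_right _ _, fun t ht =>
        (H t ht).trans (ENNReal.ofReal_le_ofReal (by gcongr; exact le_max_left _ _))⟩
      exact (h1.mono (ball_subset_ball (hs'.trans (min_le_left _ _)))).congr
        (hsub _ (hs'.trans (min_le_right _ _))) hG
    rcases Q1.types h (fun R ε hR hε => h.close Q1.classified hR hε) hxx with hl | hl | hl
    · obtain ⟨r, A, hr, H⟩ := weak_four h hxx hl.away
      obtain ⟨r', A', hr', H'⟩ := weak_line h hxx hl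
      obtain ⟨s, hs, h1⟩ := key hr H
      obtain ⟨s', hs', h1'⟩ := key hr' H'
      exact ⟨min s s', lt_min hs hs', h1 _ (min_le_left _ _), fun _ => h1' _ (min_le_right _ _)⟩
    · obtain ⟨r, A, hr, H⟩ := weak_four h hxx hl.2
      obtain ⟨r', A', hr', H'⟩ := weak_tripod h hxx hl
      obtain ⟨s, hs, h1⟩ := key hr H
      obtain ⟨s', hs', h1'⟩ := key hr' H'
      exact ⟨min s s', lt_min hs hs', h1 _ (min_le_left _ _), fun _ => h1' _ (min_le_right _ _)⟩
    · obtain ⟨r, A, hr, H⟩ := weak_four h hxx hl.2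
      obtain ⟨s, hs, h1⟩ := key hr H
      refine ⟨s, hs, h1 _ le_rfl, fun hnt => absurd ?_ hnt⟩
      have hD : HasDensities G K x 1 1 := hasDensities h hG fun δ hδ => by
        obtain ⟨r₁, hr₁, H⟩ := hl.1 δ hδ
        refine ⟨r₁, hr₁, fun r hr hr' => ?_⟩
        obtain ⟨-, h6, h7⟩ := H r hr hr'
        rw [one_mul]
        exact ⟨h6, h7⟩
      rcases local_structure hΩ hg hmin hred hxK with ⟨-, h2⟩ | ⟨h2, -⟩ | ⟨-, h2⟩
      · exact absurd (tendsto_nhds_unique hD.2 h2.2) one_ne_zero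
      · exact h2
      · exact absurd (tendsto_nhds_unique hD.2 h2.2) one_ne_zero
  · obtain ⟨r, hr, H⟩ := weak_off hΩ hg hmin ⟨hx, hxK⟩
    exact ⟨r, hr, H 4, fun _ => H 5⟩

/-- weak `L⁴` on compact sets -/
theorem weak_compact (hΩ : IsOpen Ω) (hg : MemLp g ⊤ (volume.restrict Ω))
    (hmin : IsMinimizer Ω g u G K) (hred : IsReduced Ω K) {C : Set ℂ} (hC : C ⊆ Ω)
    (hCc : IsCompact C) : WeakOn 4 G K C := by
  refine hCc.induction_on (p := WeakOn 4 G K) ⟨0, le_rfl, fun t _ => by simp⟩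
    (fun s t hst ht => ht.mono hst) (fun s t hs ht => hs.union ht) fun x hx => ?_
  obtain ⟨r, hr, h, -⟩ := weak_local hΩ hg hmin hred (hC hx)
  exact ⟨ball x r, mem_nhdsWithin_of_mem_nhds (ball_mem_nhds x hr), h⟩

theorem integrable_of_weakOn (hΩ : IsOpen Ω) (hadm : Admissible Ω u G K) {q : ℕ} {S : Set ℂ}
    (hS : MeasurableSet S) (hSΩ : S ⊆ Ω) (hSf : volume S < ⊤) (h : WeakOn q G K S) {p : ℝ}
    (hp : 0 < p) (hpq : p < q) : IntegrableOn (fun z => ‖G z‖ ^ p) (S \ K) := by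
  obtain ⟨A, -, H⟩ := h
  refine integrable_of_weak (hS.diff (hadm.measurableSet hΩ))
    ((measure_mono sdiff_subset).trans_lt hSf) ?_ (fun z => norm_nonneg _) hp hpq H
  exact (hadm.grad_memLp.1.mono_measure (Measure.restrict_mono (sdiff_subset_sdiff_left hSΩ) le_rfl)).norm

/-- Fourth powers are not integrable near a point at which the energy density is `1`. -/
theorem not_integrable_four {x : ℂ} {r : ℝ} (hr : 0 < r)
    (hK : MeasurableSet K) (hG2 : IntegrableOn (fun z => ‖G z‖ ^ 2) (closedBall x r \ K))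
    (h : IntegrableOn (fun z => ‖G z‖ ^ (4 : ℝ)) (closedBall x r \ K)) :
    ¬ Tendsto (fun r : ℝ => (∫ z in closedBall x r \ K, ‖G z‖ ^ 2) / r) (𝓝[>] 0) (𝓝 1) := by
  intro hlim
  have hπ := Real.pi_pos
  have h4 : IntegrableOn (fun z => ‖G z‖ ^ 4) (closedBall x r \ K) := by
    refine h.congr_fun (fun z _ => ?_) (isClosed_closedBall.measurableSet.diff hK)
    simp only []
    rw [← Real.rpow_natCast]
    norm_num
  -- the integral of the fourth power over small disks tends to zero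
  have hvol : ∀ s : ℝ, 0 ≤ s → volume (closedBall x s) = ENNReal.ofReal (π * s ^ 2) := by
    intro s hs
    rw [Complex.volume_closedBall, ENNReal.ofReal_mul hπ.le, ENNReal.ofReal_pow hs, mul_comm]
    congr 1
    rw [← ENNReal.ofReal_coe_nnreal, NNReal.coe_real_pi]
  have hv0 : Tendsto (fun s : ℝ => volume (closedBall x s)) (𝓝[>] 0) (𝓝 0) := by
    have h1 : Tendsto (fun s : ℝ => ENNReal.ofReal (π * s ^ 2)) (𝓝[>] 0) (𝓝 (ENNReal.ofReal (π * 0 ^ 2))) := by
      refine (ENNReal.continuous_ofReal.tendsto _).comp ?_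
      exact ((continuous_const.mul (continuous_pow 2)).tendsto 0).mono_left nhdsWithin_le_nhds
    rw [show ENNReal.ofReal (π * 0 ^ 2) = 0 by simp] at h1
    refine h1.congr' ?_
    filter_upwards [self_mem_nhdsWithin] with s hs
    exact (hvol s (le_of_lt hs)).symm
  have hI : Tendsto (fun s : ℝ => ∫ z in closedBall x s, (closedBall x r \ K).indicator
      (fun z => ‖G z‖ ^ 4) z) (𝓝[>] 0) (𝓝 0) := by
    refine Integrable.tendsto_setIntegral_nhds_zero ?_ hv0
    rwa [integrable_indicator_iff (isClosed_closedBall.measurableSet.diff hK)]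
  have e1 : ∀ᶠ s : ℝ in 𝓝[>] 0, ∫ z in closedBall x s, (closedBall x r \ K).indicator
      (fun z => ‖G z‖ ^ 4) z < 1 / (16 * π) := hI.eventually (gt_mem_nhds (by positivity))
  have e2 : ∀ᶠ s : ℝ in 𝓝[>] 0, 1 / 2 < (∫ z in closedBall x s \ K, ‖G z‖ ^ 2) / s :=
    hlim.eventually (lt_mem_nhds (by norm_num))
  have e3 : ∀ᶠ s : ℝ in 𝓝[>] 0, s ∈ Ioo 0 r := Ioo_mem_nhdsGT hr
  obtain ⟨s, ⟨h1, h2⟩, hs0, hsr⟩ := ((e1.and e2).and e3).exists
  have hsub : closedBall x s \ K ⊆ closedBall x r \ K :=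
    sdiff_subset_sdiff_left (closedBall_subset_closedBall hsr.le)
  have hms : MeasurableSet (closedBall x s \ K) := isClosed_closedBall.measurableSet.diff hK
  have e4 : ∫ z in closedBall x s, (closedBall x r \ K).indicator (fun z => ‖G z‖ ^ 4) z =
      ∫ z in closedBall x s \ K, ‖G z‖ ^ 4 := by
    rw [setIntegral_indicator (isClosed_closedBall.measurableSet.diff hK)]
    congr 2
    ext z
    simp only [mem_inter_iff, Set.mem_sdiff]
    constructor
    · rintro ⟨a, b, c⟩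
      exact ⟨a, c⟩
    · rintro ⟨a, c⟩
      exact ⟨a, closedBall_subset_closedBall hsr.le a, c⟩
  rw [e4] at h1
  rw [lt_div_iff₀ hs0] at h2
  have hfin : volume (closedBall x s \ K) < ⊤ :=
    (measure_mono sdiff_subset).trans_lt measure_closedBall_lt_top
  have hc : IntegrableOn (fun _ : ℂ => 1 / (8 * π * s)) (closedBall x s \ K) :=
    integrableOn_const hfin.ne
  have h3 : ∫ z in closedBall x s \ K, ‖G z‖ ^ 2 ≤
      ∫ z in closedBall x s \ K, (2 * π * s * ‖G z‖ ^ 4 + 1 / (8 * π * s)) := by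
    refine setIntegral_mono_on (hG2.mono_set hsub)
      (((h4.mono_set hsub).const_mul (2 * π * s)).add hc) hms fun z _ => ?_
    have e5 : 2 * π * s * ‖G z‖ ^ 4 + 1 / (8 * π * s) - ‖G z‖ ^ 2 =
        (4 * π * s * ‖G z‖ ^ 2 - 1) ^ 2 / (8 * π * s) := by
      field_simp
      ring
    have : 0 ≤ (4 * π * s * ‖G z‖ ^ 2 - 1) ^ 2 / (8 * π * s) := by positivity
    linarith
  rw [integral_add ((h4.mono_set hsub).const_mul (2 * π * s)) hc, integral_const_mul,
    setIntegral_const, smul_eq_mul] at h3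
  have h5 : (volume : Measure ℂ).real (closedBall x s \ K) ≤ π * s ^ 2 := by
    refine ENNReal.toReal_le_of_le_ofReal (by positivity) ?_
    rw [← hvol s hs0.le]
    exact measure_mono sdiff_subset
  have h6 : (volume : Measure ℂ).real (closedBall x s \ K) * (1 / (8 * π * s)) ≤ s / 8 := by
    calc (volume : Measure ℂ).real (closedBall x s \ K) * (1 / (8 * π * s))
        ≤ π * s ^ 2 * (1 / (8 * π * s)) := by gcongr
      _ = s / 8 := by field_simp
  have h7 : 2 * π * s * ∫ z in closedBall x s \ K, ‖G z‖ ^ 4 ≤ s / 8 := by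
    calc 2 * π * s * ∫ z in closedBall x s \ K, ‖G z‖ ^ 4 ≤ 2 * π * s * (1 / (16 * π)) := by gcongr
      _ = s / 8 := by field_simp; norm_num
  linarith

end Vale.Agent.P128.H757
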