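import Vale.Agent.P128.H757.Decay

/-!
P128: the area of the neighbourhoods of `K`.
-/

open MeasureTheory Set Metric Filter
open scoped ENNReal NNReal Topology Real

namespace Vale.Agent.P128.H757

open Vale.Agent.P128 Vale.Agent.P128.Q1

variable {Ω : Set ℂ} {g u : ℂ → ℝ} {G : ℂ → ℂ} {K : Set ℂ} {M : ℝ} {x₀ : ℂ} {R₀ : ℝ}

theorem volume_ball' (a : ℂ) {s : ℝ} (hs : 0 ≤ s) :
    volume (ball a s) = ENNReal.ofReal (π * s ^ 2) := by
  rw [Complex.volume_ball, ENNReal.ofReal_mul Real.pi_pos.le, ENNReal.ofReal_pow hs, mul_comm]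
  congr 1
  rw [← ENNReal.ofReal_coe_nnreal, NNReal.coe_real_pi]

/-- superadditivity on disjoint disks -/
theorem sum_le (N : Nice Ω g u G K M) {x : ℂ} {r s : ℝ} (F : Finset ℂ)
    (hd : (F : Set ℂ).PairwiseDisjoint fun y => ball y s)
    (hsub : ∀ y ∈ F, ball y s ⊆ ball x r) :
    ∑ y ∈ F, (En G y s + Q.len K y s) ≤ En G x r + Hn K x r := by
  rw [Finset.sum_add_distrib]
  have hU : ⋃ y ∈ F, ball y s ⊆ ball x r := iUnion₂_subset hsub
  have hG : Integrable fun z => ‖G z‖ ^ 2 := N.G_memLp.norm.integrable_sq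
  refine add_le_add ?_ ?_
  · unfold En
    rw [← integral_biUnion_finset F (fun y _ => measurableSet_ball) hd
      (fun y hy => hG.integrableOn)]
    exact setIntegral_mono_set hG.integrableOn (ae_of_all _ fun _ => by positivity)
      (Eventually.of_forall hU)
  · unfold Q.len Hn
    have hK : ∀ S : Set ℂ, μH[1] (K ∩ S) < ⊤ := fun S =>
      (measure_mono inter_subset_left).trans_lt N.min.1.finite
    rw [← ENNReal.toReal_sum (fun y hy => (hK _).ne)]
    refine ENNReal.toReal_mono (hK _).ne ?_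
    have e : ∀ s : Set ℂ, MeasurableSet s → μH[1] (K ∩ s) = (μH[1].restrict K) s := by
      intro s hs
      rw [Measure.restrict_apply hs, inter_comm]
    rw [e _ measurableSet_closedBall, Finset.sum_congr rfl fun y _ => e _ measurableSet_ball,
      ← measure_biUnion_finset hd fun y _ => measurableSet_ball]
    exact measure_mono (hU.trans ball_subset_closedBall)

/-- separated sets of points of `K` are small -/
theorem card_le (h : MS Ω g u G K M x₀ R₀) {x : ℂ} (hx : x ∈ K ∩ ball x₀ R₀) {ρ : ℝ}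
    (hlow : ∀ y ∈ K ∩ closedBall x₀ (2 * R₀), ∀ s ∈ Ioc 0 ρ, s / 2 ≤ Q.dir u y s + Q.len K y s)
    {r t : ℝ} (ht : 0 < t) (htr : t ≤ r) (hrρ : r ≤ ρ) (hrR : r ≤ R₀ / 4) {F : Finset ℂ}
    (hF : ∀ y ∈ F, y ∈ K ∧ dist y x < 2 * r) (hsep : ∀ a ∈ F, ∀ b ∈ F, a ≠ b → 2 * t ≤ dist a b) :
    F.card * t ≤ 2 * (6 * π + 9 * π * M ^ 2) * r := by
  have hR0 := h.R0
  have hR1 := h.R1
  have hπ := Real.pi_pos
  have hxd : dist x x₀ < R₀ := hx.2
  have h1 := sum_le h.N (x := x) (r := 3 * r) (s := t) F (fun a ha b hb hab => by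
      refine ball_disjoint_ball ?_
      have := hsep a ha b hb hab
      linarith) (fun y hy => ball_subset_ball' (by linarith [(hF y hy).2]))
  have h2 : (F.card : ℝ) * (t / 2) ≤ ∑ y ∈ F, (En G y t + Q.len K y t) := by
    rw [← nsmul_eq_mul]
    refine Finset.card_nsmul_le_sum _ _ _ fun y hy => ?_
    obtain ⟨hyK, hyx⟩ := hF y hy
    have hyx₀ := dist_triangle y x x₀
    rw [h.En_dir (fun w hw => h.sub (by
      have hw' : dist w y < t := hw
      have := dist_triangle w y x₀
      rw [mem_closedBall]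
      linarith))]
    exact hlow y ⟨hyK, by rw [mem_closedBall]; linarith⟩ t ⟨ht, htr.trans hrρ⟩
  have h3 := h.N.circle_bound (x := x) (s := 3 * r) (R := 4 * r) (by linarith) (by linarith)
    (fun w hw => h.sub (by
      rw [mem_closedBall] at hw ⊢
      have := dist_triangle w x x₀
      linarith))
  have h4 := Un_nonneg g u x (3 * r)
  have h5 : π * M ^ 2 * (3 * r) ^ 2 ≤ 9 * π * M ^ 2 * r := by
    have hr0 : 0 < r := ht.trans_le htr
    have : r ^ 2 ≤ r := by
      have : r ≤ 1 := by linarith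
      nlinarith
    calc π * M ^ 2 * (3 * r) ^ 2 = 9 * π * M ^ 2 * r ^ 2 := by ring
      _ ≤ _ := by gcongr
  linarith

/-- **Tubes.** -/
theorem tube (h : MS Ω g u G K M x₀ R₀) {x : ℂ} (hx : x ∈ K ∩ ball x₀ R₀) :
    ∃ r₁ T : ℝ, 0 < r₁ ∧ r₁ ≤ R₀ ∧ 0 < T ∧ ∀ r t, 0 < t → t ≤ r → r ≤ r₁ →
      volume {z ∈ ball x r | infDist z K < t} ≤ ENNReal.ofReal (T * (t * r)) := by
  have hR0 := h.R0
  have hπ := Real.pi_pos
  obtain ⟨ρ, hρ, -, hlow⟩ := h.toQ.low
  refine ⟨min ρ (R₀ / 4), 9 * π * (2 * (6 * π + 9 * π * M ^ 2)), by positivity,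
    (min_le_right _ _).trans (by linarith), by positivity, ?_⟩
  intro r t ht htr hr
  have hrρ : r ≤ ρ := hr.trans (min_le_left _ _)
  have hrR : r ≤ R₀ / 4 := hr.trans (min_le_right _ _)
  have hr0 : 0 < r := ht.trans_le htr
  set D : ℝ := 2 * (6 * π + 9 * π * M ^ 2) with hD
  have hD0 : 0 < D := by positivity
  set P : ℕ → Prop := fun n => ∃ F : Finset ℂ, (∀ y ∈ F, y ∈ K ∧ dist y x < 2 * r) ∧
    (∀ a ∈ F, ∀ b ∈ F, a ≠ b → 2 * t ≤ dist a b) ∧ F.card = n with hP
  have hP0 : P 0 := ⟨∅, by simp, by simp, rfl⟩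
  have hPb : ∀ n, P n → n ≤ ⌊D * r / t⌋₊ := by
    rintro n ⟨F, h1, h2, rfl⟩
    have := card_le h hx hlow ht htr hrρ hrR h1 h2
    refine Nat.le_floor ?_
    rw [le_div_iff₀ ht]
    exact this
  classical
  have hPn := Nat.findGreatest_spec (P := P) (Nat.zero_le ⌊D * r / t⌋₊) hP0
  obtain ⟨F, hF1, hF2, hF3⟩ := hPn
  have hmax : ∀ y ∈ K, dist y x < 2 * r → ∃ a ∈ F, dist y a < 2 * t := by
    intro y hy hyx
    by_contra hcon
    push Not at hcon
    have hyF : y ∉ F := fun hyF => by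
      have := hcon y hyF
      rw [dist_self] at this
      linarith
    have hQ : P (Nat.findGreatest P ⌊D * r / t⌋₊ + 1) := by
      refine ⟨insert y F, ?_, ?_, ?_⟩
      · intro w hw
        rw [Finset.mem_insert] at hw
        rcases hw with rfl | hw
        · exact ⟨hy, hyx⟩
        · exact hF1 w hw
      · intro a ha b hb hab
        rw [Finset.mem_insert] at ha hb
        rcases ha with rfl | ha
        · rcases hb with rfl | hb
          · exact absurd rfl hab
          · exact hcon b hb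
        · rcases hb with rfl | hb
          · rw [dist_comm]; exact hcon a ha
          · exact hF2 a ha b hb hab
      · rw [Finset.card_insert_of_notMem hyF, hF3]
    have h1 := Nat.le_findGreatest (hPb _ hQ) hQ
    omega
  have hcov : {z ∈ ball x r | infDist z K < t} ⊆ ⋃ a ∈ F, ball a (3 * t) := by
    rintro z ⟨hz, hzt⟩
    have hz' : dist z x < r := hz
    obtain ⟨y, hy, hyz⟩ := (infDist_lt_iff ⟨x, hx.1⟩).1 hzt
    have hyx : dist y x < 2 * r := by
      have := dist_triangle y z x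
      rw [dist_comm y z] at this
      linarith
    obtain ⟨a, ha, hya⟩ := hmax y hy hyx
    refine mem_iUnion₂.2 ⟨a, ha, ?_⟩
    rw [mem_ball]
    have := dist_triangle z y a
    linarith
  have hcard := card_le h hx hlow ht htr hrρ hrR hF1 hF2
  calc volume {z ∈ ball x r | infDist z K < t} ≤ volume (⋃ a ∈ F, ball a (3 * t)) :=
        measure_mono hcov
    _ ≤ ∑ a ∈ F, volume (ball a (3 * t)) := measure_biUnion_finset_le _ _
    _ = F.card * ENNReal.ofReal (π * (3 * t) ^ 2) := by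
        rw [Finset.sum_congr rfl fun a _ => (volume_ball' a (by positivity : 0 ≤ 3 * t)),
          Finset.sum_const, nsmul_eq_mul]
    _ = ENNReal.ofReal (F.card * (π * (3 * t) ^ 2)) := by
        rw [ENNReal.ofReal_mul (Nat.cast_nonneg _), ENNReal.ofReal_natCast]
    _ ≤ ENNReal.ofReal (9 * π * D * (t * r)) := by
        refine ENNReal.ofReal_le_ofReal ?_
        calc (F.card : ℝ) * (π * (3 * t) ^ 2) = (F.card * t) * (9 * π * t) := by ring
          _ ≤ (D * r) * (9 * π * t) := mul_le_mul_of_nonneg_right hcard (by positivity)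
          _ = _ := by ring

end Vale.Agent.P128.H757
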