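import Vale.Agent.P128.Bdl.B26
import Vale.Agent.P128.H757.Ode

/-!
P128: energy decay with exponent `9/5` at the points of a flat zone.
-/

open MeasureTheory Set Metric Filter
open scoped ENNReal NNReal Topology Real

namespace Vale.Agent.P128.H757

open Vale.Agent.P128 Vale.Agent.P128.Q1

/-- energy decay in a flat zone -/
theorem flat_decay {Ω K : Set ℂ} {g u : ℂ → ℝ} {G : ℂ → ℂ} {M : ℝ}
    (N : Nice Ω g u G K M) {y₀ : ℂ} {ρ δ : ℝ} (Z : FlatZone K y₀ ρ δ) (hδ : δ ≤ 1 / 1000)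
    (hΩ : closedBall y₀ (2 * ρ) ⊆ Ω) (hub : ∀ z ∈ ball y₀ (2 * ρ), |u z| ≤ M)
    (hH : ∀ y ∈ K, dist y y₀ ≤ ρ → ∀ r, 0 < r → r ≤ ρ → Hn K y r ≤ (2 + 1 / 100) * r)
    {y : ℂ} (hy : y ∈ K) (hyy : dist y y₀ ≤ ρ / 8) {r : ℝ} (hr : 0 < r) (hrρ : r ≤ ρ / 16) :
    En G y r ≤ 4 * (r / (ρ / 16)) ^ (9 / 5 : ℝ) *
      (En G y (ρ / 16) + 200 * (6 * π * M ^ 2) * (ρ / 16) ^ 2) := by
  have hπ := Real.pi_pos
  have hρ := Z.pos
  have hsubB : closedBall y (ρ / 16) ⊆ Ω := by
    refine Subset.trans (closedBall_subset_closedBall' ?_) hΩ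
    linarith only [hrρ, hr, hyy]
  have hub' : ∀ z ∈ ball y (ρ / 16), |u z| ≤ M := fun z hz =>
    hub z (ball_subset_ball' (by linarith only [hrρ, hr, hyy]) hz)
  refine ode_decay (E := En G y) (q := fun t => eT G y t + eN G y t) (ρ := ρ / 16)
    (κ := 51 / 100) (A := 6 * π * M ^ 2) (η := 1 / 100)
    (B := {t | 3 ≤ (K ∩ sphere y t).encard}) (by positivity) (by norm_num) le_rfl (by positivity)
    le_rfl (fun t _ _ => En_nonneg G y t)
    (fun t ht _ => add_nonneg (eT_nonneg G y ht.le) (eN_nonneg G y ht.le))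
    (fun s t hs hst _ => N.incr_E y hs hst) ?_ ?_ r hr hrρ
  · intro r hr hr1
    have h1 := Z.bad_le (hδ.trans (by norm_num)) N hΩ hy hyy hr hr1 (η := 1 / 100) (by norm_num)
      (hH y hy (hyy.trans (by linarith only [hr1, hr])) r hr (by linarith only [hr1, hr]))
    refine le_trans (le_of_eq ?_) h1
    congr 1
    ext t
    simp only [mem_inter_iff, mem_setOf_eq]
    tauto
  · filter_upwards [bonnet_loc N hsubB hub'] with t ht htR htB
    have h2 := mn_encard htB
    obtain ⟨T, w₁, w₂, hT, hne, hTe, n1, n2, hK, hgap⟩ := Z.dirs hδ hy hyy htR.1 htR.2.le h2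
    have hconn := Z.conn_ball (hδ.trans (by norm_num)) hy hyy htR.1 htR.2.le h2
    have hTne : T.Nonempty := by rw [hTe]; exact ⟨w₁, by simp⟩
    have h3 := ht htR hconn T hTne hT (51 / 50 * π) (by positivity) (by linarith only [hπ]) hgap
    rw [mn_card hTe hne] at h3
    have e1 : 51 / 50 * π / (2 * π) = 51 / 100 := by field_simp; norm_num
    rw [e1] at h3
    push_cast at h3
    linarith only [h3]

/-- powers: `(x ^ (9/5)) ^ 5 = x ^ 9` -/
theorem rpow_five {x : ℝ} (hx : 0 ≤ x) : (x ^ (9 / 5 : ℝ)) ^ 5 = x ^ 9 := by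
  rw [← Real.rpow_natCast, ← Real.rpow_mul hx, ← Real.rpow_natCast]
  norm_num

variable {Ω : Set ℂ} {g u : ℂ → ℝ} {G : ℂ → ℂ} {K : Set ℂ} {M : ℝ} {x₀ : ℂ} {R₀ : ℝ}

/-- Energy decay at `y` if `K` is close to lines at all points near `y` and all scales up to
`ρ`. -/
theorem line_energy (h : MS Ω g u G K M x₀ R₀) {y : ℂ} {ρ : ℝ} (hρ : 0 < ρ) (hy : y ∈ K)
    (hsub : closedBall y (2 * ρ) ⊆ closedBall x₀ (4 * R₀))
    (hline : ∀ z ∈ K, dist z y ≤ ρ → ∀ r, 0 < r → r ≤ ρ → LineClose G K z r (1 / 1000))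
    {r : ℝ} (hr : 0 < r) (hrρ : r ≤ ρ / 16) :
    En G y r ^ 5 ≤ 4 ^ 5 * (r / (ρ / 16)) ^ 9 *
      (En G y (ρ / 16) + 200 * (6 * π * M ^ 2) * (ρ / 16) ^ 2) ^ 5 := by
  have hΩ : closedBall y (2 * ρ) ⊆ Ω := hsub.trans h.sub
  have Z : FlatZone K y ρ (1 / 1000) :=
    ⟨hρ, h.N.min.1.isCompact_inter hΩ, fun z hz hzy r hr hrρ => (hline z hz hzy r hr hrρ).lineAt⟩
  have hub : ∀ z ∈ ball y (2 * ρ), |u z| ≤ M := fun z hz => h.bd z (hsub (ball_subset_closedBall hz))
  have hH : ∀ z ∈ K, dist z y ≤ ρ → ∀ r, 0 < r → r ≤ ρ → Hn K z r ≤ (2 + 1 / 100) * r := by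
    intro z hz hzy r hr hrρ
    have := (abs_le.1 (hline z hz hzy r hr hrρ).2.2).2
    linarith only [this, hr]
  have h1 := flat_decay h.N Z le_rfl hΩ hub hH hy (by rw [dist_self]; positivity) hr hrρ
  have h0 := En_nonneg G y r
  have h2 : 0 ≤ r / (ρ / 16) := by positivity
  calc En G y r ^ 5 ≤ (4 * (r / (ρ / 16)) ^ (9 / 5 : ℝ) *
      (En G y (ρ / 16) + 200 * (6 * π * M ^ 2) * (ρ / 16) ^ 2)) ^ 5 := pow_le_pow_left₀ h0 h1 5
    _ = _ := by rw [mul_pow, mul_pow, rpow_five h2]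

/-- monotonicity of the energy -/
theorem En_le (N : Nice Ω g u G K M) {x y : ℂ} {s t : ℝ} (h : dist x y + s ≤ t) :
    En G x s ≤ En G y t := by
  unfold En
  exact setIntegral_mono_set (N.G_memLp.norm.integrable_sq.integrableOn)
    (Eventually.of_forall fun z => sq_nonneg _)
    (Eventually.of_forall (ball_subset_ball' (by linarith only [h])))

/-- Energy decay near `x`, away from which `K` is close to lines. -/
theorem away_energy (h : MS Ω g u G K M x₀ R₀) {x : ℂ} (hx : x ∈ K ∩ ball x₀ R₀)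
    (hl : LineAway G K x) : ∃ R c B : ℝ, 0 < R ∧ R ≤ R₀ ∧ 0 < c ∧ c ≤ 1 / 2 ∧ 0 < B ∧
      ∀ y ∈ K, y ≠ x → dist y x ≤ R → ∀ r, 0 < r → r ≤ c * dist y x →
        En G y r ^ 5 * dist y x ^ 9 ≤ B * r ^ 9 * (En G x (2 * dist y x) + B * dist y x ^ 2) ^ 5 := by
  have hπ := Real.pi_pos
  obtain ⟨r₁, hr₁, c, hc, h1⟩ := hl (1 / 1000) (by norm_num)
  obtain ⟨k, hk⟩ : ∃ k, k = min (c / 2) (1 / 2) := ⟨_, rfl⟩
  have hk0 : 0 < k := by rw [hk]; positivity
  have hkc : k ≤ c / 2 := by rw [hk]; exact min_le_left _ _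
  have hk2 : k ≤ 1 / 2 := by rw [hk]; exact min_le_right _ _
  have hR0 := h.R0
  have hR1 := h.R1
  have hM := h.M1
  refine ⟨min (r₁ / 2) R₀, k / 16, max (4 ^ 5 * (16 / k) ^ 9) (200 * (6 * π * M ^ 2)),
    by positivity, min_le_right _ _, by positivity, by linarith only [hk2, hk0], by positivity, ?_⟩
  intro y hy hyx hyR r hr hrk
  have hd : 0 < dist y x := dist_pos.2 hyx
  have hdr : dist y x ≤ r₁ / 2 := hyR.trans (min_le_left _ _)
  have hdR : dist y x ≤ R₀ := hyR.trans (min_le_right _ _)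
  have hxx : dist x x₀ < R₀ := hx.2
  have hkd : k * dist y x ≤ 1 / 2 * dist y x := mul_le_mul_of_nonneg_right hk2 hd.le
  have hkd0 : 0 < k * dist y x := by positivity
  have key := line_energy h (y := y) (ρ := k * dist y x) hkd0 hy ?_ ?_ hr
    (by linarith only [hrk])
  · have e1 : En G y (k * dist y x / 16) ≤ En G x (2 * dist y x) :=
      En_le h.N (by linarith only [hkd, hd])
    have e2 : (k * dist y x / 16) ^ 2 ≤ dist y x ^ 2 :=
      pow_le_pow_left₀ (by positivity) (by linarith only [hkd, hd]) 2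
    have e3 : En G y (k * dist y x / 16) + 200 * (6 * π * M ^ 2) * (k * dist y x / 16) ^ 2 ≤
        En G x (2 * dist y x) +
          max (4 ^ 5 * (16 / k) ^ 9) (200 * (6 * π * M ^ 2)) * dist y x ^ 2 := by
      refine add_le_add e1 ?_
      exact mul_le_mul (le_max_right _ _) e2 (by positivity) (by positivity)
    have e0 : 0 ≤ En G y (k * dist y x / 16) + 200 * (6 * π * M ^ 2) * (k * dist y x / 16) ^ 2 := by
      have := En_nonneg G y (k * dist y x / 16)
      positivity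
    have e4 := pow_le_pow_left₀ e0 e3 5
    have e5 : (r / (k * dist y x / 16)) ^ 9 * dist y x ^ 9 = (16 / k) ^ 9 * r ^ 9 := by
      rw [← mul_pow, ← mul_pow]
      congr 1
      field_simp
    calc En G y r ^ 5 * dist y x ^ 9 ≤ (4 ^ 5 * (r / (k * dist y x / 16)) ^ 9 *
          (En G y (k * dist y x / 16) + 200 * (6 * π * M ^ 2) * (k * dist y x / 16) ^ 2) ^ 5) *
            dist y x ^ 9 := mul_le_mul_of_nonneg_right key (by positivity)
      _ = (4 ^ 5 * (16 / k) ^ 9) * r ^ 9 *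
          (En G y (k * dist y x / 16) + 200 * (6 * π * M ^ 2) * (k * dist y x / 16) ^ 2) ^ 5 := by
          linear_combination 4 ^ 5 * (En G y (k * dist y x / 16) +
            200 * (6 * π * M ^ 2) * (k * dist y x / 16) ^ 2) ^ 5 * e5
      _ ≤ _ := by
          refine mul_le_mul (mul_le_mul_of_nonneg_right (le_max_left _ _) (by positivity)) e4
            (by positivity) (by positivity)
  · refine closedBall_subset_closedBall' ?_
    have := dist_triangle y x x₀
    linarith only [this, hkd, hxx, hdR, hd]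
  · intro z hz hzy r hr hrk
    have hzx : dist y x / 2 ≤ dist z x := by
      have := dist_triangle y z x
      rw [dist_comm y z] at this
      linarith only [this, hzy, hkd]
    have hzx' : dist z x ≤ r₁ := by
      have := dist_triangle z y x
      linarith only [this, hrk, hr, hzy, hkd, hdr]
    refine h1 z ⟨hz, hzx'⟩ ?_ r hr ?_
    · exact dist_pos.1 (by linarith only [hzx, hrk, hr, hkd])
    · calc r ≤ k * dist y x := hrk
        _ ≤ c / 2 * dist y x := mul_le_mul_of_nonneg_right hkc hd.le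
        _ = c * (dist y x / 2) := by ring
        _ ≤ c * dist z x := mul_le_mul_of_nonneg_left hzx hc.le

end Vale.Agent.P128.H757
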