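import Vale.Agent.P128.MathlibUsed

/-!
P128: weak integrability implies integrability for smaller exponents.
-/

open MeasureTheory Set Metric Filter
open scoped ENNReal NNReal Topology Real

namespace Vale.Agent.P128.H757

theorem ofReal_le_enorm' (x : ℝ) : ENNReal.ofReal x ≤ ‖x‖ₑ := by
  rw [Real.enorm_eq_ofReal_abs]
  exact ENNReal.ofReal_le_ofReal (le_abs_self _)

theorem integrable_of_weak {S : Set ℂ} (hS : MeasurableSet S) (hSf : volume S < ⊤) {f : ℂ → ℝ}
    (hfm : AEStronglyMeasurable f (volume.restrict S)) (hf0 : ∀ z, 0 ≤ f z) {A p : ℝ} {q : ℕ}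
    (hp : 0 < p) (hpq : p < q)
    (h : ∀ t : ℝ, 0 < t → volume {z ∈ S | t < f z} ≤ ENNReal.ofReal (A / t ^ q)) :
    IntegrableOn (fun z => f z ^ p) S := by
  have hm : ∀ t : ℝ, (volume.restrict S) {z | t < f z} = volume {z ∈ S | t < f z} := by
    intro t
    rw [Measure.restrict_apply' hS]
    congr 1
    ext z
    simp only [mem_inter_iff, mem_ofPred_eq]
    tauto
  refine ⟨(hfm.aemeasurable.pow_const p).aestronglyMeasurable, ?_⟩
  rw [hasFiniteIntegral_iff_norm]
  have e1 : ∀ z, ENNReal.ofReal ‖f z ^ p‖ = ENNReal.ofReal (f z ^ p) := by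
    intro z
    rw [Real.norm_of_nonneg (Real.rpow_nonneg (hf0 z) p)]
  simp only [e1]
  rw [lintegral_rpow_eq_lintegral_meas_lt_mul _ (Eventually.of_forall hf0) hfm.aemeasurable hp]
  refine ENNReal.mul_lt_top ENNReal.ofReal_lt_top ?_
  rw [← Ioc_union_Ioi_eq_Ioi (zero_le_one (α := ℝ))]
  refine (lintegral_union_le _ _ _).trans_lt (ENNReal.add_lt_top.2 ⟨?_, ?_⟩)
  · have hi : IntegrableOn (fun t : ℝ => t ^ (p - 1)) (Ioc 0 1) := by
      have := intervalIntegral.intervalIntegrable_rpow' (a := 0) (b := 1)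
        (show -1 < p - 1 by linarith)
      rwa [intervalIntegrable_iff_integrableOn_Ioc_of_le zero_le_one] at this
    calc ∫⁻ t in Ioc (0 : ℝ) 1, (volume.restrict S) {z | t < f z} * ENNReal.ofReal (t ^ (p - 1))
        ≤ ∫⁻ t in Ioc (0 : ℝ) 1, volume S * ENNReal.ofReal (t ^ (p - 1)) := by
          refine lintegral_mono fun t => ?_
          refine mul_le_mul' ?_ le_rfl
          rw [hm]
          exact measure_mono fun z hz => hz.1
      _ = volume S * ∫⁻ t in Ioc (0 : ℝ) 1, ENNReal.ofReal (t ^ (p - 1)) :=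
          lintegral_const_mul' _ _ hSf.ne
      _ < ⊤ := by
          refine ENNReal.mul_lt_top hSf ?_
          refine lt_of_le_of_lt (lintegral_mono fun t => ?_) hi.2
          exact ofReal_le_enorm' _
  · have hi : IntegrableOn (fun t : ℝ => A * t ^ (p - 1 - q)) (Ioi 1) :=
      (integrableOn_Ioi_rpow_of_lt (by linarith) one_pos).const_mul A
    refine lt_of_le_of_lt ?_ hi.2
    refine setLIntegral_mono' measurableSet_Ioi fun t ht => ?_
    have ht1 : (1 : ℝ) < t := ht
    have ht0 : 0 < t := one_pos.trans ht1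
    rw [hm]
    calc volume {z ∈ S | t < f z} * ENNReal.ofReal (t ^ (p - 1))
        ≤ ENNReal.ofReal (A / t ^ q) * ENNReal.ofReal (t ^ (p - 1)) := by
          gcongr
          exact h t ht0
      _ = ENNReal.ofReal (A * t ^ (p - 1 - q)) := by
          rw [← ENNReal.ofReal_mul' (by positivity)]
          congr 1
          rw [Real.rpow_sub ht0 (p - 1), Real.rpow_natCast]
          ring
      _ ≤ _ := ofReal_le_enorm' _

end Vale.Agent.P128.H757
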