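import Vale.Agent.P128.H757.Tube

/-!
P128: from the pointwise bound to weak integrability.
-/

open MeasureTheory Set Metric Filter
open scoped ENNReal NNReal Topology Real

namespace Vale.Agent.P128.H757

/-- **Dyadic summation.** -/
theorem weak_sum {f : ℂ → ℝ} {K : Set ℂ} {x : ℂ} {r₀ r₁ C T : ℝ} {m : ℕ} (hm : 2 ≤ m)
    (hT : 0 < T)
    (hf : ∀ z ∈ ball x r₀, z ∉ K → f z ^ 10 * infDist z K * dist z x ^ m ≤ C)
    (htube : ∀ r t, 0 < t → t ≤ r → r ≤ r₁ →
      volume {z ∈ ball x r | infDist z K < t} ≤ ENNReal.ofReal (T * (t * r)))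
    {l t : ℝ} (hl : 0 < l) (ht : 0 < t) (hlt : l ^ (m + 1) * t ^ 10 = C) :
    volume {z ∈ ball x (min r₀ (r₁ / 2)) \ K | t < f z} ≤ ENNReal.ofReal ((π + 4 * T) * l ^ 2) := by
  have hπ := Real.pi_pos
  have hC : 0 < C := by rw [← hlt]; positivity
  have hkey : ∀ z ∈ ball x r₀, z ∉ K → t < f z → infDist z K * dist z x ^ m < l ^ (m + 1) := by
    intro z hz hzK hzt
    have h1 := hf z hz hzK
    have h2 : t ^ 10 ≤ f z ^ 10 := pow_le_pow_left₀ ht.le hzt.le 10
    have h3 : 0 ≤ infDist z K * dist z x ^ m := mul_nonneg infDist_nonneg (by positivity)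
    rcases h3.eq_or_lt with h4 | h4
    · rw [← h4]; positivity
    · have h5 : t ^ 10 < f z ^ 10 := pow_lt_pow_left₀ hzt ht.le (by norm_num)
      have h6 : t ^ 10 * (infDist z K * dist z x ^ m) < t ^ 10 * l ^ (m + 1) := by
        calc t ^ 10 * (infDist z K * dist z x ^ m) < f z ^ 10 * (infDist z K * dist z x ^ m) :=
              mul_lt_mul_of_pos_right h5 h4
          _ = f z ^ 10 * infDist z K * dist z x ^ m := by ring
          _ ≤ C := h1
          _ = t ^ 10 * l ^ (m + 1) := by rw [← hlt]; ring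
      exact lt_of_mul_lt_mul_left h6 (by positivity)
  set S : ℕ → Set ℂ := fun k => {z | (2 : ℝ) ^ (k + 1) * l ≤ r₁ ∧ z ∈ ball x (2 ^ (k + 1) * l) ∧
    infDist z K < l / 2 ^ (k * m)} with hS
  have hcov : {z ∈ ball x (min r₀ (r₁ / 2)) \ K | t < f z} ⊆ ball x l ∪ ⋃ k, S k := by
    rintro z ⟨⟨hz, hzK⟩, hzt⟩
    have hzr : dist z x < min r₀ (r₁ / 2) := hz
    have h1 := hkey z (hzr.trans_le (min_le_left _ _)) hzK hzt
    rcases lt_or_ge (dist z x) l with h2 | h2
    · exact Or.inl h2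
    · right
      obtain ⟨k, hk1, hk2⟩ := exists_nat_pow_near ((one_le_div hl).2 h2) (one_lt_two (α := ℝ))
      rw [le_div_iff₀ hl] at hk1
      rw [div_lt_iff₀ hl] at hk2
      refine mem_iUnion.2 ⟨k, ?_, hk2, ?_⟩
      · have h3 := hzr.trans_le (min_le_right _ _)
        rw [pow_succ]
        linarith
      · rw [lt_div_iff₀ (by positivity)]
        have h3 : infDist z K * (2 ^ k * l) ^ m ≤ infDist z K * dist z x ^ m :=
          mul_le_mul_of_nonneg_left (pow_le_pow_left₀ (by positivity) hk1 m) infDist_nonneg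
        have h4 : infDist z K * 2 ^ (k * m) * l ^ m < l * l ^ m := by
          calc infDist z K * 2 ^ (k * m) * l ^ m = infDist z K * (2 ^ k * l) ^ m := by
                rw [mul_pow, pow_mul]; ring
            _ ≤ infDist z K * dist z x ^ m := h3
            _ < l ^ (m + 1) := h1
            _ = l * l ^ m := by ring
        exact lt_of_mul_lt_mul_right h4 (by positivity)
  have hSk : ∀ k, volume (S k) ≤ ENNReal.ofReal (2 * T * l ^ 2 * (1 / 2) ^ k) := by
    intro k
    by_cases hk : (2 : ℝ) ^ (k + 1) * l ≤ r₁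
    · have h1 : l / 2 ^ (k * m) ≤ 2 ^ (k + 1) * l := by
        rw [div_le_iff₀ (by positivity)]
        have a1 : (1 : ℝ) ≤ 2 ^ (k + 1) := one_le_pow₀ (by norm_num)
        have a2 : (1 : ℝ) ≤ 2 ^ (k * m) := one_le_pow₀ (by norm_num)
        calc l = 1 * l * 1 := by ring
          _ ≤ 2 ^ (k + 1) * l * 2 ^ (k * m) := by gcongr
      have h2 := htube (2 ^ (k + 1) * l) (l / 2 ^ (k * m)) (by positivity) h1 hk
      have h0 : S k ⊆ {z ∈ ball x (2 ^ (k + 1) * l) | infDist z K < l / 2 ^ (k * m)} :=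
        fun z hz => ⟨hz.2.1, hz.2.2⟩
      refine (measure_mono h0).trans (h2.trans ?_)
      refine ENNReal.ofReal_le_ofReal ?_
      have a3 : (2 : ℝ) ^ (k * 2) ≤ 2 ^ (k * m) :=
        pow_le_pow_right₀ (by norm_num) (Nat.mul_le_mul_left k hm)
      have a4 : (2 : ℝ) ^ k / 2 ^ (k * m) ≤ (1 / 2) ^ k := by
        rw [div_le_iff₀ (by positivity)]
        calc (2 : ℝ) ^ k = (1 / 2) ^ k * 2 ^ (k * 2) := by
              rw [show (k * 2) = k + k by ring, pow_add, ← mul_assoc, ← mul_pow]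
              norm_num
          _ ≤ (1 / 2) ^ k * 2 ^ (k * m) := by gcongr
      calc T * (l / 2 ^ (k * m) * (2 ^ (k + 1) * l)) = 2 * T * l ^ 2 * (2 ^ k / 2 ^ (k * m)) := by
            rw [pow_succ]; ring
        _ ≤ _ := by gcongr
    · have : S k = ∅ := by
        ext z
        simp only [hS, mem_ofPred_eq, mem_empty_iff_false, iff_false]
        exact fun h => hk h.1
      rw [this, measure_empty]
      exact bot_le
  have hsum : ∑' k, volume (S k) ≤ ENNReal.ofReal (4 * T * l ^ 2) := by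
    have hs : Summable fun k : ℕ => 2 * T * l ^ 2 * (1 / 2 : ℝ) ^ k :=
      summable_geometric_two.mul_left _
    calc ∑' k, volume (S k) ≤ ∑' k, ENNReal.ofReal (2 * T * l ^ 2 * (1 / 2) ^ k) :=
          ENNReal.tsum_le_tsum hSk
      _ = ENNReal.ofReal (∑' k : ℕ, 2 * T * l ^ 2 * (1 / 2 : ℝ) ^ k) :=
          (ENNReal.ofReal_tsum_of_nonneg (fun k => by positivity) hs).symm
      _ = _ := by
          rw [tsum_mul_left, tsum_geometric_two]
          congr 1
          ring
  calc volume {z ∈ ball x (min r₀ (r₁ / 2)) \ K | t < f z} ≤ volume (ball x l ∪ ⋃ k, S k) :=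
        measure_mono hcov
    _ ≤ volume (ball x l) + volume (⋃ k, S k) := measure_union_le _ _
    _ ≤ ENNReal.ofReal (π * l ^ 2) + ENNReal.ofReal (4 * T * l ^ 2) :=
        add_le_add (volume_ball' x hl.le).le ((measure_iUnion_le _).trans hsum)
    _ = _ := by
        rw [← ENNReal.ofReal_add (by positivity) (by positivity)]
        congr 1
        ring

end Vale.Agent.P128.H757
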