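import Vale.Agent.P128.H757.Point
import Vale.Agent.P128.H757.Sum
import Vale.Agent.P128.H757.Layer
import Vale.Agent.P128.H861.Main

/-!
P128: weak integrability of the gradient near a point of `K`.
-/

open MeasureTheory Set Metric Filter
open scoped ENNReal NNReal Topology Real

namespace Vale.Agent.P128.H757

open Vale.Agent.P128 Vale.Agent.P128.Q1

variable {Ω : Set ℂ} {g u : ℂ → ℝ} {G : ℂ → ℂ} {K : Set ℂ} {M : ℝ} {x₀ : ℂ} {R₀ : ℝ}

theorem circle_five (h : MS Ω g u G K M x₀ R₀) {x : ℂ} (hx : x ∈ K ∩ ball x₀ R₀) {s : ℝ}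
    (hs : 0 < s) (hsR : s ≤ R₀) : En G x s ≤ (2 * π + π * M ^ 2) * s := by
  have hπ := Real.pi_pos
  have hR1 := h.R1
  have hxd : dist x x₀ < R₀ := hx.2
  have h3 := h.N.circle_bound (x := x) (s := s) (R := 2 * s) hs (by linarith)
    (fun w hw => h.sub (by
      rw [mem_closedBall] at hw ⊢
      have := dist_triangle w x x₀
      linarith))
  have h4 := Un_nonneg g u x s
  have h5 := Hn_nonneg K x s
  have h6 : π * M ^ 2 * s ^ 2 ≤ π * M ^ 2 * s := by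
    have : s ^ 2 ≤ s := by nlinarith
    gcongr
  linarith

/-- weak `L⁴` near every point of `K` -/
theorem weak_four (h : MS Ω g u G K M x₀ R₀) {x : ℂ} (hx : x ∈ K ∩ ball x₀ R₀)
    (hl : LineAway G K x) : ∃ r A : ℝ, 0 < r ∧ ∀ t : ℝ, 0 < t →
      volume {z ∈ ball x r \ K | t < ‖G z‖} ≤ ENNReal.ofReal (A / t ^ 4) := by
  have hπ := Real.pi_pos
  obtain ⟨r₀, C, hr₀, -, hC, H⟩ := point_bound h hx hl (m := 4) (k := 5) rfl
    (A := (2 * π + π * M ^ 2) ^ 5) (s₁ := R₀) (by positivity) h.R0 (fun s hs hsR => by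
      rw [← mul_pow]
      exact pow_le_pow_left₀ (En_nonneg G x s) (circle_five h hx hs hsR) 5)
  obtain ⟨r₁, T, hr₁, -, hT, Ht⟩ := tube h hx
  refine ⟨min r₀ (r₁ / 2), (π + 4 * T) * (C ^ (1 / 5 : ℝ)) ^ 2, by positivity, fun t ht => ?_⟩
  have h5 : (C ^ (1 / 5 : ℝ)) ^ 5 = C := by
    rw [← Real.rpow_natCast, ← Real.rpow_mul hC.le]
    norm_num
  have h1 := weak_sum (f := fun z => ‖G z‖) (m := 4) (by norm_num) hT H Ht
    (l := C ^ (1 / 5 : ℝ) / t ^ 2) (t := t) (by positivity) ht (by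
      rw [div_pow, h5]
      field_simp
      ring)
  refine h1.trans (le_of_eq ?_)
  congr 1
  field_simp

/-- weak `L⁵` near the points with a better decay of the energy -/
theorem weak_five (h : MS Ω g u G K M x₀ R₀) {x : ℂ} (hx : x ∈ K ∩ ball x₀ R₀)
    (hl : LineAway G K x) {A s₁ : ℝ} (hA : 0 ≤ A) (hs₁ : 0 < s₁)
    (hE : ∀ s, 0 < s → s ≤ s₁ → En G x s ^ 5 ≤ A * s ^ 6) : ∃ r A : ℝ, 0 < r ∧ ∀ t : ℝ, 0 < t →
      volume {z ∈ ball x r \ K | t < ‖G z‖} ≤ ENNReal.ofReal (A / t ^ 5) := by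
  have hπ := Real.pi_pos
  obtain ⟨r₀, C, hr₀, -, hC, H⟩ := point_bound h hx hl (m := 3) (k := 6) rfl hA hs₁ hE
  obtain ⟨r₁, T, hr₁, -, hT, Ht⟩ := tube h hx
  refine ⟨min r₀ (r₁ / 2), (π + 4 * T) * √C, by positivity, fun t ht => ?_⟩
  have h5 : √(√C / t ^ 5) ^ 2 = √C / t ^ 5 := Real.sq_sqrt (by positivity)
  have h1 := weak_sum (f := fun z => ‖G z‖) (m := 3) (by norm_num) hT H Ht
    (l := √(√C / t ^ 5)) (t := t) (by positivity) ht (by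
      rw [show 3 + 1 = 2 * 2 by norm_num, pow_mul, h5, div_pow, Real.sq_sqrt hC.le]
      field_simp)
  refine h1.trans (le_of_eq ?_)
  rw [h5]
  congr 1
  ring

/-- points of line type -/
theorem weak_line (h : MS Ω g u G K M x₀ R₀) {x : ℂ} (hx : x ∈ K ∩ ball x₀ R₀)
    (hl : LineType G K x) : ∃ r A : ℝ, 0 < r ∧ ∀ t : ℝ, 0 < t →
      volume {z ∈ ball x r \ K | t < ‖G z‖} ≤ ENNReal.ofReal (A / t ^ 5) := by
  obtain ⟨r₁, hr₁, h1⟩ := hl (1 / 1000) (by norm_num)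
  have hR0 := h.R0
  have hR1 := h.R1
  have hxx : dist x x₀ < R₀ := hx.2
  set ρ : ℝ := min r₁ R₀ with hρ
  have hρ0 : 0 < ρ := lt_min hr₁ hR0
  have hρr : ρ ≤ r₁ := min_le_left _ _
  have hρR : ρ ≤ R₀ := min_le_right _ _
  have hB : 0 ≤ En G x (ρ / 16) + 200 * (6 * π * M ^ 2) * (ρ / 16) ^ 2 := by
    have := En_nonneg G x (ρ / 16)
    have := Real.pi_pos
    positivity
  refine weak_five h hx hl.away (A := 4 ^ 5 * (16 / ρ) ^ 9 *
    (En G x (ρ / 16) + 200 * (6 * π * M ^ 2) * (ρ / 16) ^ 2) ^ 5) (s₁ := ρ / 16) (by positivity)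
    (by positivity) fun s hs hsρ => ?_
  have h2 := line_energy h hρ0 hx.1 (closedBall_subset_closedBall' (by linarith))
    (fun z hz hzx r hr hrρ => h1 z ⟨hz, hzx.trans hρr⟩ r hr (hrρ.trans hρr)) hs hsρ
  have h3 : s ^ 9 ≤ s ^ 6 := pow_le_pow_of_le_one hs.le (by linarith) (by norm_num)
  have h4 : (s / (ρ / 16)) ^ 9 = (16 / ρ) ^ 9 * s ^ 9 := by
    rw [← mul_pow]
    congr 1
    field_simp
  rw [h4] at h2
  calc En G x s ^ 5 ≤ 4 ^ 5 * ((16 / ρ) ^ 9 * s ^ 9) *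
        (En G x (ρ / 16) + 200 * (6 * π * M ^ 2) * (ρ / 16) ^ 2) ^ 5 := h2
    _ = 4 ^ 5 * (16 / ρ) ^ 9 *
        (En G x (ρ / 16) + 200 * (6 * π * M ^ 2) * (ρ / 16) ^ 2) ^ 5 * s ^ 9 := by ring
    _ ≤ _ := by gcongr

/-- points of tripod type -/
theorem weak_tripod (h : MS Ω g u G K M x₀ R₀) {x : ℂ} (hx : x ∈ K ∩ ball x₀ R₀)
    (hl : TripodType G K x) : ∃ r A : ℝ, 0 < r ∧ ∀ t : ℝ, 0 < t →
      volume {z ∈ ball x r \ K | t < ‖G z‖} ≤ ENNReal.ofReal (A / t ^ 5) := by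
  obtain ⟨s₀, φ, hφ⟩ := tripod_branches h hx hl
  obtain ⟨s₁, hs₁, C, hC, H⟩ := Branches.tri_decay h hx hl hφ
  refine weak_five h hx hl.2 (A := C ^ 5) (s₁ := min s₁ 1) (by positivity) (by positivity)
    fun s hs hss => ?_
  have h1 := H s hs (hss.trans (min_le_left _ _))
  have hs1 : s ≤ 1 := hss.trans (min_le_right _ _)
  have h2 : (s ^ (3 / 2 : ℝ)) ^ 5 ≤ s ^ 6 := by
    have e : (s ^ (3 / 2 : ℝ)) ^ 5 = s ^ (15 / 2 : ℝ) := by
      rw [← Real.rpow_natCast, ← Real.rpow_mul hs.le]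
      norm_num
    rw [e, ← Real.rpow_natCast s 6]
    exact Real.rpow_le_rpow_of_exponent_ge hs hs1 (by norm_num)
  calc En G x s ^ 5 ≤ (C * s ^ (3 / 2 : ℝ)) ^ 5 := pow_le_pow_left₀ (En_nonneg G x s) h1 5
    _ = C ^ 5 * (s ^ (3 / 2 : ℝ)) ^ 5 := mul_pow _ _ _
    _ ≤ C ^ 5 * s ^ 6 := by gcongr

end Vale.Agent.P128.H757
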