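import Vale.Agent.P128.H757.Decay

/-!
P128: pointwise bound of the gradient near a point of `K`.
-/

open MeasureTheory Set Metric Filter
open scoped ENNReal NNReal Topology Real

namespace Vale.Agent.P128.H757

open Vale.Agent.P128 Vale.Agent.P128.Q1

variable {Ω : Set ℂ} {g u : ℂ → ℝ} {G : ℂ → ℂ} {K : Set ℂ} {M : ℝ} {x₀ : ℂ} {R₀ : ℝ}

/-- the nearest point -/
theorem exists_nearest (h : MS Ω g u G K M x₀ R₀) {x z : ℂ} (hx : x ∈ K ∩ ball x₀ R₀)
    (hz : dist z x ≤ R₀) : ∃ y ∈ K, dist z y = infDist z K ∧ dist z y ≤ dist z x := by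
  have hR0 := h.R0
  have hxd : dist x x₀ < R₀ := hx.2
  have hsub : closedBall z (dist z x) ⊆ Ω := by
    refine (closedBall_subset_closedBall' ?_).trans h.sub
    have := dist_triangle z x x₀
    linarith
  have hc : IsCompact (K ∩ closedBall z (dist z x)) := h.N.min.1.isCompact_inter hsub
  have hxS : x ∈ K ∩ closedBall z (dist z x) := ⟨hx.1, by rw [mem_closedBall, dist_comm]⟩
  obtain ⟨y, hy, hmin⟩ := hc.exists_isMinOn ⟨x, hxS⟩ (f := fun w => dist z w)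
    (continuous_const.dist continuous_id).continuousOn
  have hyx : dist z y ≤ dist z x := hmin hxS
  have hall : ∀ w ∈ K, dist z y ≤ dist z w := by
    intro w hw
    by_cases hws : w ∈ closedBall z (dist z x)
    · exact hmin ⟨hw, hws⟩
    · rw [mem_closedBall, not_le, dist_comm w z] at hws
      exact hyx.trans hws.le
  exact ⟨y, hy.1, le_antisymm ((le_infDist ⟨x, hx.1⟩).2 fun w hw => hall w hw)
    (infDist_le_dist_of_mem hy.1), hyx⟩

/-- bound of the energy in the largest disk about `z` not meeting `K` -/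
theorem energy_bound (h : MS Ω g u G K M x₀ R₀) {x : ℂ} (hx : x ∈ K ∩ ball x₀ R₀)
    (hl : LineAway G K x) {m k : ℕ} (hmk : m + k = 9) {A s₁ : ℝ} (hA : 0 ≤ A) (hs₁ : 0 < s₁)
    (hE : ∀ s, 0 < s → s ≤ s₁ → En G x s ^ 5 ≤ A * s ^ k) :
    ∃ r₀ B : ℝ, 0 < r₀ ∧ r₀ ≤ R₀ ∧ 0 < B ∧ ∀ z ∈ ball x r₀, z ∉ K →
      En G z (infDist z K) ^ 5 * dist z x ^ m ≤ B * infDist z K ^ 9 := by
  have hR0 := h.R0
  have hR1 := h.R1
  obtain ⟨R, c, B, hR, hRR, hc, hc2, hB, H⟩ := away_energy h hx hl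
  refine ⟨min (R / 2) (s₁ / 4), max (2 ^ m * (B * 2 ^ 9 * (16 * (A * 2 ^ k + B ^ 5))))
    (2 ^ k * A * (1 + 2 / c) ^ 9), by positivity, (min_le_left _ _).trans (by linarith),
    lt_max_of_lt_left (by positivity), ?_⟩
  intro z hz hzK
  have hzr : dist z x < min (R / 2) (s₁ / 4) := hz
  have hzR : dist z x < R / 2 := hzr.trans_le (min_le_left _ _)
  have hzs : dist z x < s₁ / 4 := hzr.trans_le (min_le_right _ _)
  obtain ⟨y, hy, hyd, hyx⟩ := exists_nearest h hx (by linarith)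
  have hδ : 0 < infDist z K := by
    rw [← hyd]
    exact dist_pos.2 fun e => hzK (e ▸ hy)
  set δ : ℝ := infDist z K with hδdef
  have hδx : δ ≤ dist z x := by rw [← hyd]; exact hyx
  have hdx : 0 < dist z x := hδ.trans_le hδx
  by_cases hcase : 2 * δ ≤ c * dist y x
  · -- near `K`, away from `x`
    have hyx0 : 0 < dist y x := by
      by_contra hcon
      have : dist y x = 0 := le_antisymm (not_lt.1 hcon) dist_nonneg
      rw [this, mul_zero] at hcase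
      linarith
    have hne : y ≠ x := dist_pos.1 hyx0
    have h1 : dist y x ≤ 2 * dist z x := by
      have := dist_triangle y z x
      rw [dist_comm y z, hyd] at this
      linarith
    have h2 : dist z x ≤ 2 * dist y x := by
      have := dist_triangle z y x
      rw [hyd] at this
      have h3 : c * dist y x ≤ 1 / 2 * dist y x := mul_le_mul_of_nonneg_right hc2 hyx0.le
      linarith
    have h3 := H y hy hne (by linarith) (2 * δ) (by positivity) hcase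
    have h4 : En G z δ ≤ En G y (2 * δ) := En_le h.N (by rw [hyd]; linarith)
    have h5 : En G z δ ^ 5 ≤ En G y (2 * δ) ^ 5 := pow_le_pow_left₀ (En_nonneg G z δ) h4 5
    have h6 := hE (2 * dist y x) (by positivity) (by linarith)
    set ρ : ℝ := dist y x with hρ
    have hρ1 : ρ ≤ 1 := by linarith
    have h7 : (En G x (2 * ρ) + B * ρ ^ 2) ^ 5 ≤ 16 * (A * 2 ^ k + B ^ 5) * ρ ^ k := by
      have a1 := add_pow_le (En_nonneg G x (2 * ρ)) (show (0 : ℝ) ≤ B * ρ ^ 2 by positivity) 5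
      have a2 : ρ ^ 10 ≤ ρ ^ k := pow_le_pow_of_le_one hyx0.le hρ1 (by omega)
      have a3 : B ^ 5 * ρ ^ 10 ≤ B ^ 5 * ρ ^ k := by gcongr
      have a4 : (2 * ρ) ^ k = 2 ^ k * ρ ^ k := mul_pow _ _ _
      rw [a4] at h6
      calc (En G x (2 * ρ) + B * ρ ^ 2) ^ 5 ≤ 2 ^ (5 - 1) * (En G x (2 * ρ) ^ 5 + (B * ρ ^ 2) ^ 5) := a1
        _ = 16 * (En G x (2 * ρ) ^ 5 + B ^ 5 * ρ ^ 10) := by norm_num; ring
        _ ≤ 16 * (A * (2 ^ k * ρ ^ k) + B ^ 5 * ρ ^ k) := by gcongr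
        _ = _ := by ring
    have h8 : En G y (2 * δ) ^ 5 * ρ ^ m * ρ ^ k ≤
        (B * 2 ^ 9 * (16 * (A * 2 ^ k + B ^ 5))) * δ ^ 9 * ρ ^ k := by
      have e : ρ ^ 9 = ρ ^ m * ρ ^ k := by rw [← pow_add, hmk]
      calc En G y (2 * δ) ^ 5 * ρ ^ m * ρ ^ k = En G y (2 * δ) ^ 5 * ρ ^ 9 := by rw [e]; ring
        _ ≤ B * (2 * δ) ^ 9 * (En G x (2 * ρ) + B * ρ ^ 2) ^ 5 := h3
        _ ≤ B * (2 * δ) ^ 9 * (16 * (A * 2 ^ k + B ^ 5) * ρ ^ k) := by gcongr
        _ = _ := by ring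
    have h9 := le_of_mul_le_mul_right h8 (by positivity : 0 < ρ ^ k)
    calc En G z δ ^ 5 * dist z x ^ m ≤ En G y (2 * δ) ^ 5 * (2 * ρ) ^ m := by
          gcongr
          exact (pow_nonneg (En_nonneg G z δ) 5).trans h5
      _ = 2 ^ m * (En G y (2 * δ) ^ 5 * ρ ^ m) := by rw [mul_pow]; ring
      _ ≤ 2 ^ m * ((B * 2 ^ 9 * (16 * (A * 2 ^ k + B ^ 5))) * δ ^ 9) := by gcongr
      _ = (2 ^ m * (B * 2 ^ 9 * (16 * (A * 2 ^ k + B ^ 5)))) * δ ^ 9 := by ring
      _ ≤ _ := by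
          gcongr
          exact le_max_left _ _
  · rw [not_le] at hcase
    have h1 : dist z x ≤ (1 + 2 / c) * δ := by
      have := dist_triangle z y x
      rw [hyd] at this
      have h2 : dist y x ≤ 2 / c * δ := by
        rw [div_mul_eq_mul_div, le_div_iff₀ hc]
        linarith
      linarith
    have h2 : En G z δ ≤ En G x (2 * dist z x) := En_le h.N (by linarith)
    have h3 := hE (2 * dist z x) (by positivity) (by linarith)
    have h4 : En G z δ ^ 5 ≤ En G x (2 * dist z x) ^ 5 := pow_le_pow_left₀ (En_nonneg G z δ) h2 5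
    calc En G z δ ^ 5 * dist z x ^ m ≤ (A * (2 * dist z x) ^ k) * dist z x ^ m := by
          gcongr
          exact h4.trans h3
      _ = 2 ^ k * A * dist z x ^ 9 := by rw [mul_pow, ← hmk, pow_add]; ring
      _ ≤ 2 ^ k * A * ((1 + 2 / c) * δ) ^ 9 := by gcongr
      _ = (2 ^ k * A * (1 + 2 / c) ^ 9) * δ ^ 9 := by rw [mul_pow]; ring
      _ ≤ _ := by
          gcongr
          exact le_max_right _ _

/-- **Pointwise bound of the gradient.** -/
theorem point_bound (h : MS Ω g u G K M x₀ R₀) {x : ℂ} (hx : x ∈ K ∩ ball x₀ R₀)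
    (hl : LineAway G K x) {m k : ℕ} (hmk : m + k = 9) {A s₁ : ℝ} (hA : 0 ≤ A) (hs₁ : 0 < s₁)
    (hE : ∀ s, 0 < s → s ≤ s₁ → En G x s ^ 5 ≤ A * s ^ k) :
    ∃ r₀ C : ℝ, 0 < r₀ ∧ r₀ ≤ R₀ ∧ 0 < C ∧ ∀ z ∈ ball x r₀, z ∉ K →
      ‖G z‖ ^ 10 * infDist z K * dist z x ^ m ≤ C := by
  have hR0 := h.R0
  have hR1 := h.R1
  have hM := h.M1
  obtain ⟨r₀, B, hr₀, hrR, hB, H⟩ := energy_bound h hx hl hmk hA hs₁ hE
  obtain ⟨c₁, hc₁, hgrad⟩ := Q.exists_grad_est
  refine ⟨r₀, c₁ ^ 10 * 2 ^ 9 * (2 ^ 10 * B + M ^ 10), hr₀, hrR, by positivity, ?_⟩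
  intro z hz hzK
  have hzr : dist z x < r₀ := hz
  have h1 := H z hz hzK
  obtain ⟨y, hy, hyd, hyx⟩ := exists_nearest h hx (by linarith)
  have hδ : 0 < infDist z K := by
    rw [← hyd]
    exact dist_pos.2 fun e => hzK (e ▸ hy)
  set δ : ℝ := infDist z K with hδdef
  have hδx : δ ≤ dist z x := by rw [← hyd]; exact hyx
  have hdx : 0 < dist z x := hδ.trans_le hδx
  have hxd : dist x x₀ < R₀ := hx.2
  have hzx₀ := dist_triangle z x x₀
  have hBsub : ball z (2 * (δ / 2)) ⊆ ball x₀ (2 * (2 * R₀)) \ K := by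
    intro w hw
    rw [mem_ball] at hw
    refine ⟨?_, fun hwK => ?_⟩
    · rw [mem_ball]
      have := dist_triangle w z x₀
      linarith
    · have := infDist_le_dist_of_mem (x := z) hwK
      rw [dist_comm] at this
      linarith
  have hzΩ : z ∈ Ω \ K := ⟨h.sub (by rw [mem_closedBall]; linarith), hzK⟩
  have h2 := (hgrad h.toQ z (δ / 2) (by positivity) hBsub z (mem_ball_self (by positivity)) z
    (mem_ball_self (by positivity))).1
  have hballΩ : ball z δ ⊆ Ω := fun w hw => h.sub (by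
    have hw' : dist w z < δ := hw
    rw [mem_closedBall]
    have := dist_triangle w z x₀
    linarith)
  have e0 : 2 * (δ / 2) = δ := by ring
  rw [e0, ← h.En_dir hballΩ, ← h.Gu z hzΩ] at h2
  have hEn := En_nonneg G z δ
  set E : ℝ := En G z δ with hEdef
  have e1 : √E ^ 10 = E ^ 5 := by
    rw [show (10 : ℕ) = 2 * 5 by norm_num, pow_mul, Real.sq_sqrt hEn]
  have h3 : ‖G z‖ ^ 10 ≤ c₁ ^ 10 * 2 ^ 9 * (2 ^ 10 * (E ^ 5 / δ ^ 10) + (M * (δ / 2)) ^ 10) := by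
    calc ‖G z‖ ^ 10 ≤ (c₁ * (√E / (δ / 2) + M * (δ / 2))) ^ 10 :=
          pow_le_pow_left₀ (norm_nonneg _) h2 10
      _ = c₁ ^ 10 * (√E / (δ / 2) + M * (δ / 2)) ^ 10 := mul_pow _ _ _
      _ ≤ c₁ ^ 10 * (2 ^ (10 - 1) * ((√E / (δ / 2)) ^ 10 + (M * (δ / 2)) ^ 10)) := by
          gcongr
          exact add_pow_le (by positivity) (by positivity) 10
      _ = _ := by
          rw [div_pow, e1, div_pow]
          field_simp
  have h4 : (M * (δ / 2)) ^ 10 * δ * dist z x ^ m ≤ M ^ 10 := by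
    have b1 : M * (δ / 2) ≤ M := by
      have : δ / 2 ≤ 1 := by linarith
      calc M * (δ / 2) ≤ M * 1 := by gcongr
        _ = M := mul_one M
    have b2 : (M * (δ / 2)) ^ 10 ≤ M ^ 10 := pow_le_pow_left₀ (by positivity) b1 10
    have b3 : dist z x ^ m ≤ 1 := pow_le_one₀ dist_nonneg (by linarith)
    calc (M * (δ / 2)) ^ 10 * δ * dist z x ^ m ≤ M ^ 10 * 1 * 1 := by
          gcongr
          linarith
      _ = M ^ 10 := by ring
  have h5 : E ^ 5 / δ ^ 10 * δ * dist z x ^ m ≤ B := by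
    have : E ^ 5 / δ ^ 10 * δ * dist z x ^ m = E ^ 5 * dist z x ^ m / δ ^ 9 := by
      field_simp
    rw [this, div_le_iff₀ (by positivity)]
    exact h1
  calc ‖G z‖ ^ 10 * δ * dist z x ^ m
      ≤ (c₁ ^ 10 * 2 ^ 9 * (2 ^ 10 * (E ^ 5 / δ ^ 10) + (M * (δ / 2)) ^ 10)) * δ * dist z x ^ m := by
        gcongr
    _ = c₁ ^ 10 * 2 ^ 9 * (2 ^ 10 * (E ^ 5 / δ ^ 10 * δ * dist z x ^ m) +
        (M * (δ / 2)) ^ 10 * δ * dist z x ^ m) := by ring
    _ ≤ _ := by gcongr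

end Vale.Agent.P128.H757
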